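import Mathlib
import Vale.Agent.H20.P204Main

open scoped ContDiff

namespace Vale.Agent.Results.P204.TorusInvariantTamed

/-- The partial derivative `∂f/∂p_i` of a function on `ℝ⁴`. -/
noncomputable def pd (i : Fin 4) (f : (Fin 4 → ℝ) → ℝ) (p : Fin 4 → ℝ) : ℝ :=
  deriv (fun t : ℝ => f (Function.update p i t)) (p i)

/-- A smooth almost complex structure on the closed four-manifold `T⁴ = ℝ⁴/ℤ⁴`, written as a
smooth `ℤ⁴`-periodic matrix field `(J i j)` on `ℝ⁴` with `J_p² = -id`. -/
structure AlmostComplexStructure where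
  J : Fin 4 → Fin 4 → (Fin 4 → ℝ) → ℝ
  smooth : ∀ i j, ContDiff ℝ ∞ (J i j)
  sq : ∀ i j p, ∑ k, J i k p * J k j p = if i = j then -1 else 0
  periodic : ∀ i j (p : Fin 4 → ℝ) (n : Fin 4 → ℤ), J i j (fun k => p k + n k) = J i j p

/-- A smooth closed two-form on `T⁴ = ℝ⁴/ℤ⁴`: a smooth `ℤ⁴`-periodic field of alternating matrices
`B i j = B(∂_i, ∂_j)` with `dB = 0`, i.e. `∂_i B_jk + ∂_j B_ki + ∂_k B_ij = 0`. -/
structure ClosedTwoForm where
  B : Fin 4 → Fin 4 → (Fin 4 → ℝ) → ℝ
  smooth : ∀ i j, ContDiff ℝ ∞ (B i j)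
  alt : ∀ i j p, B i j p = -B j i p
  periodic : ∀ i j (p : Fin 4 → ℝ) (n : Fin 4 → ℤ), B i j (fun k => p k + n k) = B i j p
  closed : ∀ i j k p, pd i (B j k) p + pd j (B k i) p + pd k (B i j) p = 0

/-- `η` tames `K`: `η_p(v, J_p v) > 0` for every nonzero tangent vector `v`. -/
def Tames (η : ClosedTwoForm) (K : AlmostComplexStructure) : Prop :=
  ∀ p v : Fin 4 → ℝ, v ≠ 0 → 0 < ∑ i, ∑ j, η.B i j p * v i * ∑ k, K.J j k p * v k

/-- `η` is compatible with `K`: it tames `K` and `η_p(J_p ∂_i, J_p ∂_j) = η_p(∂_i, ∂_j)`. -/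
def Compatible (η : ClosedTwoForm) (K : AlmostComplexStructure) : Prop :=
  Tames η K ∧ ∀ i j p, ∑ k, ∑ l, η.B k l p * K.J k i p * K.J l j p = η.B i j p

open Vale.Agent.H20

/-- matrix to operator -/
noncomputable def mkJ (a : Fin 4 → Fin 4 → ℝ) : P204.E →L[ℝ] P204.E :=
  ContinuousLinearMap.pi fun i => ∑ j, a i j •
    (ContinuousLinearMap.proj (R := ℝ) (φ := fun _ : Fin 4 => ℝ) j)

lemma mkJ_apply (a : Fin 4 → Fin 4 → ℝ) (v : P204.E) (i : Fin 4) :
    mkJ a v i = ∑ j, a i j * v j := by
  simp [mkJ]

/-- matrix to bilinear form -/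
noncomputable def mkB (b : Fin 4 → Fin 4 → ℝ) : P204.E →L[ℝ] P204.E →L[ℝ] ℝ :=
  ∑ i, ∑ j, b i j • (ContinuousLinearMap.proj (R := ℝ) (φ := fun _ : Fin 4 => ℝ) i).smulRight
    (ContinuousLinearMap.proj (R := ℝ) (φ := fun _ : Fin 4 => ℝ) j)

lemma mkB_apply (b : Fin 4 → Fin 4 → ℝ) (u v : P204.E) :
    mkB b u v = ∑ i, ∑ j, b i j * (u i * v j) := by
  simp [mkB]

lemma pd_eq {f : P204.E → ℝ} (hf : ContDiff ℝ ∞ f) (i : Fin 4) (p : P204.E) :
    pd i f p = fderiv ℝ f p (Pi.single i 1) := by
  have h1 : HasFDerivAt f (fderiv ℝ f p) (Function.update p i (p i)) := by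
    rw [Function.update_eq_self]
    exact ((hf.differentiable (by simp)) p).hasFDerivAt
  have h2 := h1.comp_hasDerivAt (p i) (hasDerivAt_update p i (p i))
  exact h2.deriv

noncomputable def toK (K : AlmostComplexStructure) : P204.AlmostComplexStructure where
  J := fun p => mkJ fun i j => K.J i j p
  smooth := by
    rw [contDiff_clm_apply_iff]
    intro v
    rw [contDiff_pi]
    intro i
    simp only [mkJ_apply]
    exact ContDiff.sum fun j _ => (K.smooth i j).mul contDiff_const
  sq := by
    intro p v
    ext i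
    rw [mkJ_apply]
    simp only [mkJ_apply, Finset.mul_sum]
    rw [Finset.sum_comm]
    have : ∀ j, ∑ k, K.J i k p * (K.J k j p * v j) = (if i = j then -1 else 0) * v j := by
      intro j
      rw [← K.sq i j p, Finset.sum_mul]
      apply Finset.sum_congr rfl; intro k _; ring
    simp only [this]
    simp
  periodic := by
    intro p n
    congr 1
    ext i j
    exact K.periodic i j p n

noncomputable def toF (η : ClosedTwoForm) : P204.ClosedTwoForm where
  B := fun p => mkB fun i j => η.B i j p
  smooth := by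
    rw [contDiff_clm_apply_iff]
    intro u
    rw [contDiff_clm_apply_iff]
    intro v
    simp only [mkB_apply]
    exact ContDiff.sum fun i _ => ContDiff.sum fun j _ => (η.smooth i j).mul contDiff_const
  alt := by
    intro p v
    rw [mkB_apply]
    have h1 : ∑ i, ∑ j, η.B i j p * (v i * v j) = - ∑ i, ∑ j, η.B i j p * (v i * v j) := by
      conv_lhs => rw [Finset.sum_comm]
      rw [← Finset.sum_neg_distrib]
      apply Finset.sum_congr rfl; intro i _
      rw [← Finset.sum_neg_distrib]
      apply Finset.sum_congr rfl; intro j _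
      rw [η.alt j i p]; ring
    linarith
  periodic := by
    intro p n
    congr 1
    ext i j
    exact η.periodic i j p n
  closed := by
    intro p u v w
    have hsm : ContDiff ℝ ∞ fun p => mkB fun i j => η.B i j p := by
      rw [contDiff_clm_apply_iff]
      intro u
      rw [contDiff_clm_apply_iff]
      intro v
      simp only [mkB_apply]
      exact ContDiff.sum fun i _ => ContDiff.sum fun j _ => (η.smooth i j).mul contDiff_const
    have hev : ∀ z a b : P204.E, fderiv ℝ (fun p => mkB fun i j => η.B i j p) p z a b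
        = ∑ k, ∑ i, ∑ j, z k * pd k (η.B i j) p * (a i * b j) := by
      intro z a b
      have h0 : HasFDerivAt (fun p => mkB fun i j => η.B i j p) _ p :=
        ((hsm.differentiable (by simp)) p).hasFDerivAt
      have h1 := (h0.clm_apply (hasFDerivAt_const a p)).clm_apply (hasFDerivAt_const b p)
      have h2 : HasFDerivAt (fun p => ∑ i, ∑ j, η.B i j p * (a i * b j))
          (∑ i, ∑ j, (a i * b j) • fderiv ℝ (η.B i j) p) p := by
        apply HasFDerivAt.fun_sum; intro i _
        apply HasFDerivAt.fun_sum; intro j _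
        exact (((η.smooth i j).differentiable (by simp)) p).hasFDerivAt.mul_const _
      have h3 : (fun p => (mkB fun i j => η.B i j p) a b) = fun p => ∑ i, ∑ j, η.B i j p * (a i * b j) := by
        ext q; rw [mkB_apply]
      have h4 := (h1.congr_of_eventuallyEq (f₁ := fun p => ∑ i, ∑ j, η.B i j p * (a i * b j))
        (Filter.Eventually.of_forall fun q => (congrFun h3 q).symm)).unique h2
      have h5 := congrArg (fun L : P204.E →L[ℝ] ℝ => L z) h4
      have hz : z = ∑ k, z k • (Pi.single k (1:ℝ) : P204.E) := by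
        ext j
        simp [Finset.sum_apply, Pi.single_apply]
      have h6 : (∑ i, ∑ j, (a i * b j) • fderiv ℝ (η.B i j) p) z
          = ∑ k, ∑ i, ∑ j, z k * pd k (η.B i j) p * (a i * b j) := by
        conv_lhs => rw [hz]
        rw [map_sum]
        apply Finset.sum_congr rfl; intro k _
        simp only [map_smul, sum_apply, smul_apply, smul_eq_mul, Finset.mul_sum]
        apply Finset.sum_congr rfl; intro i _
        apply Finset.sum_congr rfl; intro j _
        rw [pd_eq (η.smooth i j)]; ring
      rw [← h6, ← h5]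
      simp
    rw [hev, hev, hev]
    have e2 : ∑ k, ∑ i, ∑ j, v k * pd k (η.B i j) p * (w i * u j)
        = ∑ k, ∑ i, ∑ j, v i * pd i (η.B j k) p * (w j * u k) := by
      calc ∑ k, ∑ i, ∑ j, v k * pd k (η.B i j) p * (w i * u j)
          = ∑ k, ∑ j, ∑ i, v k * pd k (η.B i j) p * (w i * u j) := by
            apply Finset.sum_congr rfl; intro k _; rw [Finset.sum_comm]
        _ = ∑ j, ∑ k, ∑ i, v k * pd k (η.B i j) p * (w i * u j) := by rw [Finset.sum_comm]
    have e3 : ∑ k, ∑ i, ∑ j, w k * pd k (η.B i j) p * (u i * v j)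
        = ∑ k, ∑ i, ∑ j, w j * pd j (η.B k i) p * (u k * v i) := by
      calc ∑ k, ∑ i, ∑ j, w k * pd k (η.B i j) p * (u i * v j)
          = ∑ i, ∑ k, ∑ j, w k * pd k (η.B i j) p * (u i * v j) := by rw [Finset.sum_comm]
        _ = ∑ i, ∑ j, ∑ k, w k * pd k (η.B i j) p * (u i * v j) := by
            apply Finset.sum_congr rfl; intro i _; rw [Finset.sum_comm]
    rw [e2, e3]
    simp only [← Finset.sum_add_distrib]
    apply Finset.sum_eq_zero; intro k _
    apply Finset.sum_eq_zero; intro i _
    apply Finset.sum_eq_zero; intro j _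
    have := η.closed k i j p
    linear_combination (u k * v i * w j) * this

noncomputable def ofF (η : P204.ClosedTwoForm) : ClosedTwoForm where
  B := fun i j p => η.B p (Pi.single i 1) (Pi.single j 1)
  smooth := fun i j => (η.smooth.clm_apply contDiff_const).clm_apply contDiff_const
  alt := by
    intro i j p
    have := η.alt p (Pi.single i 1 + Pi.single j 1)
    simp only [map_add, add_apply, η.alt] at this
    linarith
  periodic := by
    intro i j p n
    have : (fun k => p k + (n k : ℝ)) = p + fun k => (n k : ℝ) := rfl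
    simp only [this, η.periodic]
  closed := by
    intro i j k p
    rw [pd_eq ((η.smooth.clm_apply contDiff_const).clm_apply contDiff_const),
      pd_eq ((η.smooth.clm_apply contDiff_const).clm_apply contDiff_const),
      pd_eq ((η.smooth.clm_apply contDiff_const).clm_apply contDiff_const),
      P204.fderiv_eval, P204.fderiv_eval, P204.fderiv_eval]
    exact η.closed p _ _ _

/-- **Result.**  Let `K` be a smooth almost complex structure on `T⁴ = ℝ⁴/ℤ⁴` that depends only on
the coordinate `p 0` (equivalently: invariant under the free translation action of the 3-torus in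
the other coordinates).  If some closed two-form tames `K`, then some closed two-form is compatible
with `K`. -/
theorem result (K : AlmostComplexStructure)
    (hK : ∀ i j, ∀ p q : Fin 4 → ℝ, p 0 = q 0 → K.J i j p = K.J i j q)
    (hT : ∃ η : ClosedTwoForm, Tames η K) : ∃ η : ClosedTwoForm, Compatible η K := by
  obtain ⟨η, ht⟩ := hT
  have hK' : ∀ p q : P204.E, p 0 = q 0 → (toK K).J p = (toK K).J q := by
    intro p q hpq
    change mkJ (fun i j => K.J i j p) = mkJ (fun i j => K.J i j q)
    congr 1
    ext i j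
    exact hK i j p q hpq
  have ht' : P204.Tames (toF η) (toK K) := by
    intro p v hv
    have := ht p v hv
    change 0 < mkB (fun i j => η.B i j p) v (mkJ (fun i j => K.J i j p) v)
    rw [mkB_apply]
    simp only [mkJ_apply]
    refine this.trans_eq ?_
    apply Finset.sum_congr rfl; intro i _
    apply Finset.sum_congr rfl; intro j _
    ring
  obtain ⟨ζ, hζ1, hζ2⟩ := P204.main_clm (toK K) hK' ⟨toF η, ht'⟩
  have hexp : ∀ (B : P204.E →L[ℝ] P204.E →L[ℝ] ℝ) (u v : P204.E), B u v
      = ∑ i, ∑ j, B (Pi.single i 1) (Pi.single j 1) * u i * v j := by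
    intro B u v
    have hu : u = ∑ i, u i • (Pi.single i (1:ℝ) : P204.E) := by
      ext j
      simp [Finset.sum_apply, Pi.single_apply]
    have hv : v = ∑ i, v i • (Pi.single i (1:ℝ) : P204.E) := by
      ext j
      simp [Finset.sum_apply, Pi.single_apply]
    conv_lhs => rw [hu, hv]
    simp only [map_sum, map_smul, sum_apply, smul_apply, smul_eq_mul, Finset.mul_sum]
    rw [Finset.sum_comm]
    apply Finset.sum_congr rfl; intro i _
    apply Finset.sum_congr rfl; intro j _
    ring
  have hJe : ∀ (p : P204.E) (j k : Fin 4), (toK K).J p (Pi.single j 1) k = K.J k j p := by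
    intro p j k
    change mkJ (fun i j => K.J i j p) (Pi.single j 1) k = _
    rw [mkJ_apply]
    simp [Pi.single_apply]
  refine ⟨ofF ζ, ?_, ?_⟩
  · intro p v hv
    have := hζ1 p v hv
    rw [hexp] at this
    refine this.trans_eq ?_
    apply Finset.sum_congr rfl; intro i _
    apply Finset.sum_congr rfl; intro j _
    change _ * v i * (mkJ (fun i j => K.J i j p) v j) = _
    rw [mkJ_apply]
    rfl
  · intro i j p
    have := hζ2 p (Pi.single i 1) (Pi.single j 1)
    rw [hexp] at this
    simp only [hJe] at this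
    exact this

end Vale.Agent.Results.P204.TorusInvariantTamed
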